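import Mathlib
import Vale.Agent.P237.Const
import Vale.Agent.P237.Sharp.Ellipsoid
import Vale.Agent.P237.Sharp.Three
import Vale.Agent.P237.Sharp.Four
import Vale.Agent.P237.Sharp.OneD3.Main
import Vale.Agent.P237.Sharp.OneD4.Main
import Vale.Agent.P237.Sharp.Five
import Vale.Agent.P237.Sharp.OneD5.Mono

open MeasureTheory Set Real

namespace Vale.Agent.Results.P237.PettyR3R4R5

open Vale.Agent.P237

/-- Petty's projection-volume conjecture in `ℝ³`, `ℝ⁴` and `ℝ⁵`, with the equality cases. -/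
theorem result :
    ∀ n : ℕ, n = 3 ∨ n = 4 ∨ n = 5 →
      ∀ K : Set (E n), IsCompact K → Convex ℝ K → (interior K).Nonempty →
        kap (n - 1) ^ n / kap n ^ (n - 2) * volume.real K ^ (n - 1) ≤ volume.real (projBody K) ∧
          (kap (n - 1) ^ n / kap n ^ (n - 2) * volume.real K ^ (n - 1) = volume.real (projBody K) ↔
            IsEllipsoid K) := by
  have h2 : kap 2 = π := by rw [kap, Sharp.vol_disc zero_le_one, one_pow, mul_one]
  have h3 : kap 3 = 4 * π / 3 := by rw [kap, Sharp.vol_ball zero_le_one, one_pow, mul_one]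
  have h4 : kap 4 = π ^ 2 / 2 := by rw [kap, Sharp.vol_ball_four zero_le_one, one_pow, mul_one]
  have hp := pi_pos.ne'
  have c3 : kap 2 ^ 3 / kap 3 ^ 1 = 3 * π ^ 2 / 4 := by rw [h2, h3]; field_simp
  have c4 : kap 3 ^ 4 / kap 4 ^ 2 = 1024 / 81 := by rw [h3, h4]; field_simp; ring
  have c5 : kap 4 ^ 5 / kap 5 ^ 3 = 3375 * π ^ 4 / 16384 := by
    rw [Sharp.kap_four_eq, Sharp.kap_five_eq]; field_simp; ring
  rintro n (rfl | rfl | rfl) K hc hv hi
  · show kap 2 ^ 3 / kap 3 ^ 1 * volume.real K ^ 2 ≤ _ ∧ _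
    rw [c3]
    exact Sharp.pettyThree_of Sharp.OneD3.oneD3 K hc hv hi
  · show kap 3 ^ 4 / kap 4 ^ 2 * volume.real K ^ 3 ≤ _ ∧ _
    rw [c4]
    exact Sharp.pettyFour_of Sharp.OneD4.oneD4 K hc hv hi
  · show kap 4 ^ 5 / kap 5 ^ 3 * volume.real K ^ 4 ≤ _ ∧ _
    rw [c5]
    exact Sharp.pettyFive_of Sharp.OneD5.oneD5 K hc hv hi

end Vale.Agent.Results.P237.PettyR3R4R5
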