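import Mathlib
import Vale.Agent.P237.Univ.Assembly
import Vale.Agent.P237.Univ.OneD
import Vale.Agent.P237.Univ.Flux
import Vale.Agent.P237.Univ.John
import Vale.Agent.P237.Univ.Smooth

open MeasureTheory Set Real

namespace Vale.Agent.Results.P237.UniversalConstant

open Vale.Agent.P237

/-- Petty's projection inequality up to the absolute constant `√(3π)/4 ≈ 0.7675`, in every
dimension and for every convex body. -/
theorem result :
    ∀ n : ℕ, 3 ≤ n →
      ∀ K : Set (E n), IsCompact K → Convex ℝ K → (interior K).Nonempty →
        √(3 * π) / 4 * (kap (n - 1) ^ n / kap n ^ (n - 2)) * volume.real K ^ (n - 1) ≤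
          volume.real (projBody K) := fun n hn K hc hv hi =>
  Univ.pettyConst_of Univ.oneDU Univ.fluxU Univ.johnU Univ.smoothU n hn K ⟨hc, hv, hi⟩

end Vale.Agent.Results.P237.UniversalConstant
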